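import Mathlib

/-!
# P141, line (A), TI, leaf LBCg: the scalar end at one `x₀`

`opt_lam` : a bound by `A λ + B λ⁻¹ + c` for every `λ > 0` is a bound by `2 √(A B) + c`;
`fix_end` : the two parameters of `H419.PairB.WPair.total` chosen, all numbers inserted.
-/

namespace Vale.Agent.P141.H636.Top

open Real

/-- optimal parameter, also when one of the two numbers vanishes -/
theorem opt_lam {S A B c : ℝ} (hA : 0 ≤ A) (hB : 0 ≤ B)
    (h : ∀ lam : ℝ, 0 < lam → S ≤ A * lam + B * lam⁻¹ + c) : S ≤ 2 * √(A * B) + c := by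
  have key : ∀ δ : ℝ, 0 < δ → S ≤ 2 * √((A + δ) * (B + δ)) + c := by
    intro δ hδ
    have ha : 0 < A + δ := by linarith
    have hb : 0 < B + δ := by linarith
    have hl : 0 < √(B + δ) / √(A + δ) := div_pos (Real.sqrt_pos.2 hb) (Real.sqrt_pos.2 ha)
    have h1 := h _ hl
    have e1 : A * (√(B + δ) / √(A + δ)) ≤ √((A + δ) * (B + δ)) := by
      have : (A + δ) * (√(B + δ) / √(A + δ)) = √((A + δ) * (B + δ)) := by
        rw [Real.sqrt_mul ha.le]
        have hs : √(A + δ) ≠ 0 := (Real.sqrt_pos.2 ha).ne'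
        have hq : √(A + δ) * √(A + δ) = A + δ := Real.mul_self_sqrt ha.le
        field_simp
        nlinarith
      rw [← this]
      exact mul_le_mul_of_nonneg_right (by linarith) hl.le
    have e2 : B * (√(B + δ) / √(A + δ))⁻¹ ≤ √((A + δ) * (B + δ)) := by
      have : (B + δ) * (√(B + δ) / √(A + δ))⁻¹ = √((A + δ) * (B + δ)) := by
        rw [Real.sqrt_mul ha.le, inv_div]
        have hs : √(B + δ) ≠ 0 := (Real.sqrt_pos.2 hb).ne'
        have hq : √(B + δ) * √(B + δ) = B + δ := Real.mul_self_sqrt hb.le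
        field_simp
        nlinarith
      rw [← this]
      exact mul_le_mul_of_nonneg_right (by linarith) (inv_pos.2 hl).le
    linarith
  have hc : Filter.Tendsto (fun δ : ℝ => 2 * √((A + δ) * (B + δ)) + c)
      (nhdsWithin 0 (Set.Ioi 0)) (nhds (2 * √((A + 0) * (B + 0)) + c)) := by
    have hcont : Continuous fun δ : ℝ => 2 * √((A + δ) * (B + δ)) + c := by fun_prop
    exact (hcont.tendsto 0).mono_left nhdsWithin_le_nhds
  rw [add_zero, add_zero] at hc
  refine ge_of_tendsto hc ?_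
  filter_upwards [self_mem_nhdsWithin] with δ hδ
  exact key δ hδ

theorem sqrt_add_le' {x y : ℝ} (hx : 0 ≤ x) (hy : 0 ≤ y) : √(x + y) ≤ √x + √y := by
  rw [← Real.sqrt_sq (add_nonneg (Real.sqrt_nonneg x) (Real.sqrt_nonneg y))]
  refine Real.sqrt_le_sqrt ?_
  have h1 := Real.sq_sqrt hx
  have h2 := Real.sq_sqrt hy
  nlinarith [mul_nonneg (Real.sqrt_nonneg x) (Real.sqrt_nonneg y)]

/-- **The scalar end.** `a` absorbs all constants (`C (J + 1) ^ 3`). -/
theorem fix_end {S s q τ a E EB TP TQ OM OO ZB ZM EBb EM X : ℝ} (hs : 0 < s) (hq : 0 ≤ q)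
    (hτ : 0 ≤ τ) (hτ2 : τ ≤ 2) (ha : 0 ≤ a) (hE : 0 ≤ E) (hEB : 0 ≤ EB) (hTP0 : 0 ≤ TP)
    (h : ∀ lam kap : ℝ, 0 < lam → 0 < kap → (1 / 2) * S ≤ √(TP * TQ)
      + (q * τ * s⁻¹ * OM + q * τ * s⁻¹ * (1 + 2 * lam) * OO + s * lam⁻¹ * ZB
        + q * τ * (2 * lam)⁻¹ * ZM + s * kap * EBb + q * τ * (2 * kap)⁻¹ * EM + X))
    (hTP : TP ≤ a * (q * EB)) (hTQ : TQ ≤ a * (s * E)) (hOM : OM ≤ a * (s * E))
    (hOO : OO ≤ a * (s * E)) (hZB : ZB ≤ a * EB) (hEBb : EBb ≤ a * EB) (hZM : ZM ≤ a * E)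
    (hEM : EM ≤ a * E) (hX : X ≤ a * (q * E)) :
    S ≤ 18 * a * (√(s * E * (q * EB)) + q * E) := by
  have hsi : s⁻¹ * s = 1 := inv_mul_cancel₀ hs.ne'
  have r0 : √(TP * TQ) ≤ a * √(s * E * (q * EB)) := by
    have e1 : a * √(s * E * (q * EB)) = √(a * (q * EB) * (a * (s * E))) := by
      rw [show a * (q * EB) * (a * (s * E)) = a ^ 2 * (s * E * (q * EB)) by ring,
        Real.sqrt_mul (sq_nonneg a) (s * E * (q * EB)), Real.sqrt_sq ha]
    rw [e1]
    refine Real.sqrt_le_sqrt ?_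
    exact (mul_le_mul_of_nonneg_left hTQ hTP0).trans
      (mul_le_mul_of_nonneg_right hTP (by positivity))
  have step : ∀ lam : ℝ, 0 < lam → ∀ kap : ℝ, 0 < kap → (1 / 2) * S ≤
      (4 * a * (q * E)) * lam + (a * (s * EB) + a * (q * E)) * lam⁻¹ +
        (a * (s * EB) * kap + a * (q * E) * kap⁻¹ +
        (a * √(s * E * (q * EB)) + 5 * a * (q * E))) := by
    intro lam hl kap hk
    have hli : 0 < lam⁻¹ := inv_pos.2 hl
    have hki : 0 < kap⁻¹ := inv_pos.2 hk
    have h0 := h lam kap hl hk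
    have hqE : 0 ≤ a * (q * E) := by positivity
    have t1 : q * τ * s⁻¹ * OM ≤ 2 * (a * (q * E)) := by
      have c1 : q * τ * s⁻¹ * OM ≤ q * τ * s⁻¹ * (a * (s * E)) :=
        mul_le_mul_of_nonneg_left hOM (by positivity)
      have c2 : q * τ * s⁻¹ * (a * (s * E)) = τ * (a * (q * E)) := by
        calc q * τ * s⁻¹ * (a * (s * E)) = (s⁻¹ * s) * (τ * (a * (q * E))) := by ring
          _ = _ := by rw [hsi, one_mul]
      have c3 : τ * (a * (q * E)) ≤ 2 * (a * (q * E)) := mul_le_mul_of_nonneg_right hτ2 hqE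
      linarith
    have t2 : q * τ * s⁻¹ * (1 + 2 * lam) * OO ≤ 2 * (1 + 2 * lam) * (a * (q * E)) := by
      have c1 : q * τ * s⁻¹ * (1 + 2 * lam) * OO ≤ q * τ * s⁻¹ * (1 + 2 * lam) * (a * (s * E)) :=
        mul_le_mul_of_nonneg_left hOO (by positivity)
      have c2 : q * τ * s⁻¹ * (1 + 2 * lam) * (a * (s * E)) =
          τ * ((1 + 2 * lam) * (a * (q * E))) := by
        calc q * τ * s⁻¹ * (1 + 2 * lam) * (a * (s * E)) =
            (s⁻¹ * s) * (τ * ((1 + 2 * lam) * (a * (q * E)))) := by ring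
          _ = _ := by rw [hsi, one_mul]
      have c3 : τ * ((1 + 2 * lam) * (a * (q * E))) ≤ 2 * ((1 + 2 * lam) * (a * (q * E))) :=
        mul_le_mul_of_nonneg_right hτ2 (by positivity)
      linarith
    have t3 : s * lam⁻¹ * ZB ≤ a * (s * EB) * lam⁻¹ := by
      have c1 : s * lam⁻¹ * ZB ≤ s * lam⁻¹ * (a * EB) :=
        mul_le_mul_of_nonneg_left hZB (by positivity)
      linarith
    have t4 : q * τ * (2 * lam)⁻¹ * ZM ≤ a * (q * E) * lam⁻¹ := by
      have c1 : q * τ * (2 * lam)⁻¹ * ZM ≤ q * τ * (2 * lam)⁻¹ * (a * E) :=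
        mul_le_mul_of_nonneg_left hZM (by positivity)
      have c2 : q * τ * (2 * lam)⁻¹ * (a * E) = (τ / 2) * (a * (q * E) * lam⁻¹) := by
        rw [mul_inv]
        ring
      have c3 : (τ / 2) * (a * (q * E) * lam⁻¹) ≤ 1 * (a * (q * E) * lam⁻¹) :=
        mul_le_mul_of_nonneg_right (by linarith) (by positivity)
      linarith
    have t5 : s * kap * EBb ≤ a * (s * EB) * kap := by
      have c1 : s * kap * EBb ≤ s * kap * (a * EB) :=
        mul_le_mul_of_nonneg_left hEBb (by positivity)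
      linarith
    have t6 : q * τ * (2 * kap)⁻¹ * EM ≤ a * (q * E) * kap⁻¹ := by
      have c1 : q * τ * (2 * kap)⁻¹ * EM ≤ q * τ * (2 * kap)⁻¹ * (a * E) :=
        mul_le_mul_of_nonneg_left hEM (by positivity)
      have c2 : q * τ * (2 * kap)⁻¹ * (a * E) = (τ / 2) * (a * (q * E) * kap⁻¹) := by
        rw [mul_inv]
        ring
      have c3 : (τ / 2) * (a * (q * E) * kap⁻¹) ≤ 1 * (a * (q * E) * kap⁻¹) :=
        mul_le_mul_of_nonneg_right (by linarith) (by positivity)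
      linarith
    linarith
  set R := √(s * E * (q * EB)) with hR
  have hR0 : 0 ≤ R := Real.sqrt_nonneg _
  have hqE : 0 ≤ q * E := by positivity
  -- first parameter
  have s1 : ∀ kap : ℝ, 0 < kap → (1 / 2) * S ≤
      2 * √((4 * a * (q * E)) * (a * (s * EB) + a * (q * E))) +
        (a * (s * EB) * kap + a * (q * E) * kap⁻¹ + (a * R + 5 * a * (q * E))) := fun kap hk =>
    opt_lam (by positivity) (by positivity) fun lam hl => step lam hl kap hk
  -- second parameter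
  have s2 : (1 / 2) * S ≤ 2 * √((a * (s * EB)) * (a * (q * E))) +
      (2 * √((4 * a * (q * E)) * (a * (s * EB) + a * (q * E))) + (a * R + 5 * a * (q * E))) :=
    opt_lam (by positivity) (by positivity) fun kap hk => by
      have := s1 kap hk
      linarith
  have e1 : √((a * (s * EB)) * (a * (q * E))) = a * R := by
    rw [show (a * (s * EB)) * (a * (q * E)) = a ^ 2 * (s * E * (q * EB)) by ring,
      Real.sqrt_mul (sq_nonneg a) (s * E * (q * EB)), Real.sqrt_sq ha]
  have e2 : √((4 * a * (q * E)) * (a * (s * EB) + a * (q * E))) ≤ 2 * a * R + 2 * a * (q * E) := by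
    have c1 : (4 * a * (q * E)) * (a * (s * EB) + a * (q * E)) =
        (2 * a) ^ 2 * (s * E * (q * EB)) + (2 * a * (q * E)) ^ 2 := by ring
    rw [c1]
    refine (sqrt_add_le' (by positivity) (by positivity)).trans (le_of_eq ?_)
    rw [Real.sqrt_mul (sq_nonneg (2 * a)) (s * E * (q * EB)), Real.sqrt_sq (by positivity),
      Real.sqrt_sq (by positivity)]
  rw [e1] at s2
  nlinarith [mul_nonneg ha hR0, mul_nonneg ha hqE]

end Vale.Agent.P141.H636.Top
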