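import Vale.Agent.P141.H401.CStF
import Vale.Agent.P141.H163.EzTI
import Vale.Agent.P141.H816.MkFD
import Vale.Agent.P141.H939.PriceB
import Vale.Agent.P141.H228.GaugeI

/-!
# P141, line (A): leaves for class data with small fibres

Over `H401.CStF` (`FibQ`, `CStF`, `CStF.toUV`, `PairQ.toF`).

* `CStF.of_one` : it is enough to treat `ez = 1`;
* `PairF Φ` : `PairQ (FibQ Φ)`; `PairF.of`, `PairQ.mono`, `PairF.mono`, `PairF.and`,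
  `PairF.of_one`; `LBCg`, `LBC1g` : the moving leaves in the gauge of `H228`;
* `Fb D` : the bundle `D` with `FibU`, `FibP`; `FDU = Fb FD`, `mkFU_FDU`, `PartF.toFDU`,
  `PriceB.toFDU`, `leafMU`, `cstF_fM_of`, `cstUV_fM_of`.
-/

namespace Vale.Agent.P141.H636

open Finset Matrix
open Vale.Agent.P141.PL (Pt iv cx)
open Vale.Agent.P141.PL.H315 (Tri)
open Vale.Agent.P141.H48 (US ES BSl)
open Vale.Agent.P141.H677
open Vale.Agent.P141.H305 (ClsM kapM)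
open Vale.Agent.P141.H401
open Vale.Agent.P141.H408
open Vale.Agent.P141.H163 (Hom dv mC_dv le_of_near)
open Vale.Agent.P141.H677.Sk (FD FM1 FunG)

noncomputable section

open scoped Classical

set_option linter.unusedSectionVars false

set_option linter.unusedVariables false

/-! ### Prices -/

/-- `CStF` with `ez = 1` -/
def CStF1 (T : FunF) : Prop :=
  PartQ (FibQ fun ι _ _ p _n ez F1 F2 F3 o K x s r U g u v Q1 _Q2 Q3 B => ez = 1 →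
    ∀ sg : ℕ → Pt → ℝ, (∀ k m, |sg k m| ≤ 1) →
      T ι (p.lam s r) o (p.al U K) K x u (cA p s r U K g F1 Q1) (cb p s r U K u F3 Q3)
        (mC p U K v F2) sg ≤ B)

/-- **It is enough to treat `ez = 1`.** -/
theorem CStF.of_one {T : FunF} (hT : Hom T) (H : CStF1 T) : CStF T := by
  unfold CStF
  refine H163.PartQ.of_one (Φ := FibQ fun ι _ _ p _n _ez F1 F2 F3 o K x s r U g u v Q1 _Q2 Q3 B =>
    ∀ sg : ℕ → Pt → ℝ, (∀ k m, |sg k m| ≤ 1) →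
      T ι (p.lam s r) o (p.al U K) K x u (cA p s r U K g F1 Q1) (cb p s r U K u F3 Q3)
        (mC p U K v F2) sg ≤ B) ?_ ?_ ?_
  · intro ι _ _ p n ez F1 F2 F3 o K x s r U g u v Q1 Q2 Q3 B w hw h f1 f2 sg hsg
    rw [mC_dv p U K v F2 hw]
    exact (hT ι _ o _ K x u _ _ _ sg (√w) (Real.sqrt_nonneg w)).trans
      (mul_le_mul_of_nonneg_left (h f1 f2 sg hsg) (Real.sqrt_nonneg w))
  · intro ι _ _ p n ez F1 F2 F3 o K x s r U g u v Q1 Q2 Q3 B h f1 f2 sg hsg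
    exact le_of_near fun δ hδ => by
      obtain ⟨B', h1, h2⟩ := h δ hδ
      exact ⟨B', h1, h2 f1 f2 sg hsg⟩
  · unfold CStF1 PartQ FibQ at H
    unfold PartQ FibQ
    intro a ha ha1
    obtain ⟨es, hes, H⟩ := H a ha ha1
    refine ⟨es, hes, fun e0 he0 he0' => ?_⟩
    obtain ⟨k8s, hk8s, H⟩ := H e0 he0 he0'
    refine ⟨k8s, hk8s, fun k8 hk8 hk8' => ?_⟩
    obtain ⟨k3s, hk3s, H⟩ := H k8 hk8 hk8'
    refine ⟨k3s, hk3s, fun k3 hk3 hk3' => ?_⟩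
    obtain ⟨gam, c1, d0, del, hgam, hc1, hd0, hdel, H⟩ := H k3 hk3 hk3'
    refine ⟨gam, c1, d0, del, hgam, hc1, hd0, hdel,
      fun c hc hcc d hd hdd Kt e cP L hK he hcP hL => ?_⟩
    obtain ⟨CD, hCD, C, hC, H⟩ := H c hc hcc d hd hdd Kt e cP L hK he hcP hL
    refine ⟨CD, hCD, C, hC, ?_⟩
    intro t ht ht1 n ez F1 F2 F3 h1 h3 h2 o ho K hKn x ι _ _ s r U g u v hs hr hcls Q1 Q2 Q3
      q1 q2 q3 e1 f1 f2
    exact H t ht ht1 n ez F1 F2 F3 h1 h3 h2 o ho K hKn x ι s r U g u v hs hr hcls Q1 Q2 Q3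
      q1 q2 q3 f1 f2 e1

/-! ### The number leaves -/

/-- **Number leaf for class data with small fibres** -/
def PairF (Φ : StQ) : Prop := PairQ (FibQ Φ)

theorem PairF.of {Φ : StQ} (H : PairQ Φ) : PairF Φ := H401.PairQ.toF H

/-- a weaker statement -/
theorem PairQ.mono {Φ Ψ : StQ} (H : PairQ Φ)
    (h : ∀ (ι : Type) [Fintype ι] [DecidableEq ι] (p : H401.Num) (n : ℕ) (ez : ℝ)
      (F1 F2 F3 : ℕ → Pt → ℝ) (o : ℤ) (K : ℕ) (x : Pt) (s r : ℝ) (U : Tri) (g : ℤ → ℤ → ℝ)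
      (u v : ℤ → ℤ → ι → ℝ) (Q1 Q2 Q3 : ℕ → Pt → Prop) (X : ℝ), 0 < p.t → p.t ≤ 1 → 0 < s →
      1 ≤ r → 0 < ez → 0 ≤ X →
      Φ ι p n ez F1 F2 F3 o K x s r U g u v Q1 Q2 Q3 X →
      Ψ ι p n ez F1 F2 F3 o K x s r U g u v Q1 Q2 Q3 X) : PairQ Ψ := by
  intro a ha ha1
  obtain ⟨es, hes, H⟩ := H a ha ha1
  refine ⟨es, hes, fun e0 he0 he0' => ?_⟩
  obtain ⟨k8s, hk8s, H⟩ := H e0 he0 he0'
  refine ⟨k8s, hk8s, fun k8 hk8 hk8' => ?_⟩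
  obtain ⟨k3s, hk3s, H⟩ := H k8 hk8 hk8'
  refine ⟨k3s, hk3s, fun k3 hk3 hk3' δ hδ => ?_⟩
  obtain ⟨c1, d0, hc1, hd0, H⟩ := H k3 hk3 hk3' δ hδ
  refine ⟨c1, d0, hc1, hd0, fun c hc hcc d hd hdd Kt e cP L hK he hcP hL => ?_⟩
  obtain ⟨C, hC, H⟩ := H c hc hcc d hd hdd Kt e cP L hK he hcP hL
  refine ⟨C, hC, ?_⟩
  intro t ht ht1 n ez F1 F2 F3 f1 f3 f2 o ho K hKn x ι _ _ s r U g u v hs hr hcls Q1 Q2 Q3 q1 q2 q3
    hez
  exact h ι _ n ez F1 F2 F3 o K x s r U g u v Q1 Q2 Q3 _ ht ht1 hs hr hez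
    (mul_nonneg hC (Real.rpow_nonneg (div_nonneg ht.le (by linarith)) _))
    (H t ht ht1 n ez F1 F2 F3 f1 f3 f2 o ho K hKn x ι s r U g u v hs hr hcls Q1 Q2 Q3 q1 q2 q3 hez)

theorem PairF.mono {Φ Ψ : StQ} (H : PairF Φ)
    (h : ∀ (ι : Type) [Fintype ι] [DecidableEq ι] (p : H401.Num) (n : ℕ) (ez : ℝ)
      (F1 F2 F3 : ℕ → Pt → ℝ) (o : ℤ) (K : ℕ) (x : Pt) (s r : ℝ) (U : Tri) (g : ℤ → ℤ → ℝ)
      (u v : ℤ → ℤ → ι → ℝ) (Q1 Q2 Q3 : ℕ → Pt → Prop) (X : ℝ), 0 < p.t → p.t ≤ 1 → 0 < s →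
      1 ≤ r → 0 < ez → 0 ≤ X → FibU p K x s r U u → FibP p K x s r U v →
      Φ ι p n ez F1 F2 F3 o K x s r U g u v Q1 Q2 Q3 X →
      Ψ ι p n ez F1 F2 F3 o K x s r U g u v Q1 Q2 Q3 X) : PairF Ψ := by
  unfold PairF at H ⊢
  refine PairQ.mono H ?_
  intro ι _ _ p n ez F1 F2 F3 o K x s r U g u v Q1 Q2 Q3 X a1 a2 a3 a4 a5 a6 h1 f1 f2
  exact h ι p n ez F1 F2 F3 o K x s r U g u v Q1 Q2 Q3 X a1 a2 a3 a4 a5 a6 f1 f2 (h1 f1 f2)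

theorem PairF.and {Φ1 Φ2 : StQ} (H1 : PairF Φ1) (H2 : PairF Φ2) (m1 : MonoQ Φ1)
    (m2 : MonoQ Φ2) : PairF fun ι _ _ p n ez F1 F2 F3 o K x s r U g u v Q1 Q2 Q3 X =>
      Φ1 ι p n ez F1 F2 F3 o K x s r U g u v Q1 Q2 Q3 X ∧
        Φ2 ι p n ez F1 F2 F3 o K x s r U g u v Q1 Q2 Q3 X :=
  H401.PairQ.andF H1 H2 m1 m2

/-- **It is enough to treat `ez = 1`.** -/
theorem PairF.of_one {Ψ Φ : StQ}
    (hΦ : ∀ (ι : Type) [Fintype ι] [DecidableEq ι] (p : H401.Num) (n : ℕ) (ez : ℝ)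
      (F1 F2 F3 : ℕ → Pt → ℝ) (o : ℤ) (K : ℕ) (x : Pt) (s r : ℝ) (U : Tri) (g : ℤ → ℤ → ℝ)
      (u v : ℤ → ℤ → ι → ℝ) (Q1 Q2 Q3 : ℕ → Pt → Prop) (X : ℝ), 0 < ez →
      Ψ ι p n 1 F1 (dv ez F2) F3 o K x s r U g u v Q1 Q2 Q3 X →
      Φ ι p n ez F1 F2 F3 o K x s r U g u v Q1 Q2 Q3 X)
    (H : PairF fun ι _ _ p n ez F1 F2 F3 o K x s r U g u v Q1 Q2 Q3 X =>
      ez = 1 → Ψ ι p n ez F1 F2 F3 o K x s r U g u v Q1 Q2 Q3 X) : PairF Φ := by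
  unfold PairF at H ⊢
  refine H163.PairQ.of_one (Ψ := FibQ Ψ) ?_ (PairQ.mono H ?_)
  · intro ι _ _ p n ez F1 F2 F3 o K x s r U g u v Q1 Q2 Q3 X hez h f1 f2
    exact hΦ ι p n ez F1 F2 F3 o K x s r U g u v Q1 Q2 Q3 X hez (h f1 f2)
  · intro ι _ _ p n ez F1 F2 F3 o K x s r U g u v Q1 Q2 Q3 X _ _ _ _ _ _ h e1 f1 f2
    exact h f1 f2 e1

/-! ### The moving leaves of the increasing part -/

/-- `LBC` in the gauge of `H228` -/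
def LBCg : Prop := PairF fun ι _ _ p _ ez F1 F2 F3 o K x s r U g u v Q1 _ Q3 X =>
  ∀ y, gI p s r ≤ y → y ≤ cCI p s r →
    H228.Gauge.PBCg (beI p r) (tauI p s r) y ι (p.al U K) o K (cx K x) (fun _ _ => 0) (p.lam s r) u
      (cA p s r U K g F1 Q1) (cb p s r U K u F3 Q3) (C1 p ez U K v F2) ≤
    X * (s * 8 ^ K) * (tauI p s r * y)

/-- `LBC1` in the gauge of `H228`, power `12` -/
def LBC1g : Prop := PairF fun ι _ _ p _ ez F1 F2 F3 o K x s r U g u v Q1 _ Q3 X =>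
  ∀ h, 0 < h → h ≤ tauI p s r →
    H228.Gauge.PBCg (beI p r) h h ι (p.al U K) o K (cx K x) (fun _ _ => 0) (p.lam s r) u
      (cA p s r U K g F1 Q1) (cb p s r U K u F3 Q3) (C1 p ez U K v F2) ≤
    X * (s * 8 ^ K) * ((p.t / r) ^ (-12 : ℝ) * (h ^ 2 * (tauI p s r / h) ^ (1 / 4 : ℝ)))

/-! ### Bundles with small fibres -/

/-- the bundle with the two hypotheses -/
def Fb (D : Bun) : Bun := fun ι _ _ p n ez F1 F2 F3 o K x s r U g u v A b C =>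
  FibU p K x s r U u ∧ FibP p K x s r U v ∧ D ι p n ez F1 F2 F3 o K x s r U g u v A b C

/-- **A maker of `D` is a maker of `D` with small fibres.** -/
theorem mkFU_fb {D : Bun} (H : MkFU D) : MkFU (Fb D) := by
  unfold MkFU PartQ at H ⊢
  intro a ha ha1
  obtain ⟨es, hes, H⟩ := H a ha ha1
  refine ⟨es, hes, fun e0 he0 he0' => ?_⟩
  obtain ⟨k8s, hk8s, H⟩ := H e0 he0 he0'
  refine ⟨k8s, hk8s, fun k8 hk8 hk8' => ?_⟩
  obtain ⟨k3s, hk3s, H⟩ := H k8 hk8 hk8'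
  refine ⟨k3s, hk3s, fun k3 hk3 hk3' => ?_⟩
  obtain ⟨gam, c1, d0, del, hgam, hc1, hd0, hdel, H⟩ := H k3 hk3 hk3'
  refine ⟨gam, c1, d0, del, hgam, hc1, hd0, hdel, fun c hc hcc d hd hdd Kt e cP L hK he hcP hL => ?_⟩
  obtain ⟨CD, hCD, C, hC, H⟩ := H c hc hcc d hd hdd Kt e cP L hK he hcP hL
  refine ⟨CD, hCD, C, hC, ?_⟩
  intro t ht ht1 n ez F1 F2 F3 h1 h3 h2 o ho K hKn x ι _ _ s r U g u v hs hr hcls Q1 Q2 Q3 q1 q2 q3
    f1 f2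
  exact ⟨f1, f2, H t ht ht1 n ez F1 F2 F3 h1 h3 h2 o ho K hKn x ι s r U g u v hs hr hcls Q1 Q2 Q3
    q1 q2 q3 f1 f2⟩

/-- **The bundle of the flow part with small fibres of `u` and `v`.** -/
def FDU : Bun := Fb FD

theorem mkFU_FDU : MkFU FDU := mkFU_fb H816.mk_FD.toFU

/-- the weaker bundle -/
theorem PartF.fb {D : Bun} {T : FunF} (H : PartF D T) : PartF (Fb D) T :=
  H.weaken fun ι _ _ p n ez F1 F2 F3 o K x s r U g u v A b C h => h.2.2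

theorem PartF.toFDU {T : FunF} (H : PartF FD T) : PartF FDU T := PartF.fb H

/-- the weaker bundle -/
theorem PriceB.mono {D D' : Bun} {T : FunG} (H : H939.PriceB D T)
    (h : ∀ (ι : Type) [Fintype ι] [DecidableEq ι] (p : H401.Num) (n : ℕ) (ez : ℝ)
      (F1 F2 F3 : ℕ → Pt → ℝ) (o : ℤ) (K : ℕ) (x : Pt) (s r : ℝ) (U : Tri) (g : ℤ → ℤ → ℝ)
      (u v : ℤ → ℤ → ι → ℝ) (A : ℤ → ℕ → ℤ → ℤ → ℝ) (b C : ℤ → ℕ → ℤ → ℤ → ι → ℝ),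
      D' ι p n ez F1 F2 F3 o K x s r U g u v A b C → D ι p n ez F1 F2 F3 o K x s r U g u v A b C) :
    H939.PriceB D' T := by
  intro a ha ha1
  obtain ⟨es, hes, hes1, H⟩ := H a ha ha1
  refine ⟨es, hes, hes1, fun e0 he0 he0' => ?_⟩
  obtain ⟨k8s, hk8s, H⟩ := H e0 he0 he0'
  refine ⟨k8s, hk8s, fun k8 hk8 hk8' => ?_⟩
  obtain ⟨k3s, hk3s, H⟩ := H k8 hk8 hk8'
  refine ⟨k3s, hk3s, fun k3 hk3 hk3' => ?_⟩
  obtain ⟨p, θ, w, b, c1, d1, hθ, hw, hb, hc1, hd1, H⟩ := H k3 hk3 hk3'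
  refine ⟨p, θ, w, b, c1, d1, hθ, hw, hb, hc1, hd1,
    fun c hc hcc d hd hdd Kt e cP L hK he hcP hL CD hCD => ?_⟩
  obtain ⟨C, hC, H⟩ := H c hc hcc d hd hdd Kt e cP L hK he hcP hL CD hCD
  refine ⟨C, hC, ?_⟩
  intro t ht ht1 n ez F1 F2 F3 h1 h3 h2 o ho K hKn x ι _ _ s r U g u v hs hr hcls A b' C' hD
  exact H t ht ht1 n ez F1 F2 F3 h1 h3 h2 o ho K hKn x ι s r U g u v hs hr hcls A b' C'
    (h ι _ n ez F1 F2 F3 o K x s r U g u v A b' C' hD)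

/-- the price for the bundle without the hypotheses -/
theorem PriceB.toFDU {T : FunG} (H : H939.PriceB FD T) : H939.PriceB FDU T :=
  PriceB.mono H fun ι _ _ p n ez F1 F2 F3 o K x s r U g u v A b C h => h.2.2

/-- **The node forms from the price for one slot**, small fibres. -/
theorem leafMU (H : H939.PriceB FDU fun _ι _ _ K M R A b C h j e => FM1 K M R A b C h j e) :
    PartF FDU Sk.fM :=
  Sk.partF_fM (H939.partG_of_priceB Sk.subT_FM1 H)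

theorem cstF_of_FDU {T : FunF} (H : PartF FDU T) : CStF T := CStF.of_mk mkFU_FDU H

theorem cstUV_of_FDU {T : FunF} (H : PartF FDU T) : CStUV DuS DvS T := (cstF_of_FDU H).toUV

theorem cstF_fM_of (H : PartF FDU Sk.fM) : CStF Sk.fM := cstF_of_FDU H

theorem cstUV_fM_of (H : PartF FDU Sk.fM) : CStUV DuS DvS Sk.fM := cstUV_of_FDU H

theorem cstF_fM (H : H939.PriceB FDU fun _ι _ _ K M R A b C h j e => FM1 K M R A b C h j e) :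
    CStF Sk.fM := cstF_of_FDU (leafMU H)

end

end Vale.Agent.P141.H636
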